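import Vale.Agent.P181.BAL.Defs

set_option autoImplicit false

open scoped TensorProduct

/-!
# P181, BAL, B6a: the value of a plethysm vector at a sum of powers of linear forms
-/

open MvPolynomial

namespace Vale.Agent.P181.BAL.H343

open Vale.Agent.P181 Vale.Agent.P181.H280 Vale.Agent.P181.H54 Vale.Agent.P181.FR
  Vale.Agent.P181.H188W Vale.Agent.P181.BAL

universe u

/-- The diagonal value at a linear combination. -/
lemma symEval_expand {M : Type u} [AddCommGroup M] [Module ℂ M] {b : ℕ} {κ : Type} [Fintype κ]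
    (c : κ → ℂ) (L : κ → Module.Dual ℂ M) (x : Sym[ℂ]^b M) :
    symEval (fun _ : Fin b => ∑ q, c q • L q) x =
      ∑ t : Fin b → κ, (∏ j, c (t j)) * symEval (fun j => L (t j)) x := by
  classical
  rw [← symEvalM_apply, MultilinearMap.map_sum]
  apply Finset.sum_congr rfl
  intro t _
  rw [MultilinearMap.map_smul_univ (symEvalM x) (fun j => c (t j)) (fun j => L (t j)),
    smul_eq_mul, symEvalM_apply]

/-- The form `∑ c_q ξ_q^a`. -/
noncomputable def pw {κ : Type} [Fintype κ] (a m : ℕ) (c : κ → ℂ) (ξ : κ → Fin m → ℂ) :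
    Module.Dual ℂ (Sym[ℂ]^a (Fin m → ℂ)) :=
  ∑ q, c q • evalPow a (dotF (ξ q))

lemma ev_expand {B a m : ℕ} {κ : Type} [Fintype κ] (c : κ → ℂ) (ξ : κ → Fin m → ℂ)
    (x : Pleth B a m) :
    ev (pw a m c ξ) x = ∑ t : Fin B → κ, (∏ j, c (t j)) * ptv x (fun j => ξ (t j)) :=
  symEval_expand c (fun q => evalPow a (dotF (ξ q))) (x : Sym[ℂ]^B (Sym[ℂ]^a (Fin m → ℂ)))

/-- **[B6a]** the value at a sum of powers of the vector of a highest weight function. -/
theorem exists_ev {B a m : ℕ} {nu : Fin m → ℕ} (G : (Fin B → Fin m → ℂ) → ℂ)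
    (hG : G ∈ MP B m a) (hw : HWF B m nu G) :
    ∃ x ∈ hwSpace nu (plethAct B a m), ∀ (κ : Type) [Fintype κ] (c : κ → ℂ)
      (ξ : κ → Fin m → ℂ) (g : Matrix (Fin m) (Fin m) ℂ),
      ev (pw a m c ξ) (plethAct B a m g x) = (Fintype.card (Equiv.Perm (Fin B)) : ℂ) *
        ∑ t : Fin B → κ, (∏ j, c (t j)) * G (fun j => Matrix.vecMul (ξ (t j)) g) := by
  classical
  obtain ⟨x, hx⟩ := exists_ptv G hG
  refine ⟨x, ?_, ?_⟩
  · intro g hg
    apply ptv_sep
    intro p
    rw [ptv_act, ptv_smul, hx, hx, Finset.mul_sum]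
    apply Finset.sum_congr rfl
    intro σ _
    exact hw g hg (fun j => p (σ j))
  · intro κ _ c ξ g
    rw [ev_expand]
    have h1 : ∀ t : Fin B → κ, (∏ j, c (t j)) * ptv (plethAct B a m g x) (fun j => ξ (t j)) =
        ∑ σ : Equiv.Perm (Fin B), (∏ j, c (t (σ j))) *
          G (fun j => Matrix.vecMul (ξ (t (σ j))) g) := by
      intro t
      rw [ptv_act, hx, Finset.mul_sum]
      apply Finset.sum_congr rfl
      intro σ _
      rw [Equiv.prod_comp σ (fun j => c (t j))]
    rw [Finset.sum_congr rfl (fun t _ => h1 t), Finset.sum_comm]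
    have h2 : ∀ σ : Equiv.Perm (Fin B), ∑ t : Fin B → κ, (∏ j, c (t (σ j))) *
        G (fun j => Matrix.vecMul (ξ (t (σ j))) g) =
        ∑ t : Fin B → κ, (∏ j, c (t j)) * G (fun j => Matrix.vecMul (ξ (t j)) g) := by
      intro σ
      exact Equiv.sum_comp (Equiv.arrowCongr σ.symm (Equiv.refl κ))
        (fun t : Fin B → κ => (∏ j, c (t j)) * G (fun j => Matrix.vecMul (ξ (t j)) g))
    rw [Finset.sum_congr rfl (fun σ _ => h2 σ), Finset.sum_const, nsmul_eq_mul,
      Finset.card_univ]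

end Vale.Agent.P181.BAL.H343
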